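import Vale.Agent.P060.Defs
import Vale.Agent.P060.H467.Main

namespace Vale.Agent.Results.P060.ConstantFactor

open Vale.Agent.P060 Vale.Agent.P060.HW

/-- **Hadwiger's conjecture fails by a constant factor.**  (1) For every large `t` there is a finite graph with no
`K_(t+1)` minor, with independence number at most two, which cannot be coloured with `(1 + 2 * 10 ^ (-13)) t` colours; in
particular its Hadwiger number is smaller than its chromatic number.  (2) For every large `n` there is such a graph on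
exactly `n` vertices, with Hadwiger number less than `(1 / 2 - 10 ^ (-13)) n` and chromatic number at least `n / 2`. -/
theorem result :
    (∃ t₀ : ℕ, ∀ t : ℕ, t₀ ≤ t → ∃ (n : ℕ) (G : SimpleGraph (Fin n)),
      G.indepNum ≤ 2 ∧ ¬ HasCliqueMinor G (t + 1) ∧
      (∀ k : ℕ, G.Colorable k → (1 + 2 / 10 ^ 13) * (t : ℝ) < k) ∧
      (hadwigerNumber G : ℕ∞) < G.chromaticNumber) ∧
    (∃ n₀ : ℕ, ∀ n : ℕ, n₀ ≤ n → ∃ G : SimpleGraph (Fin n), G.indepNum ≤ 2 ∧
      (hadwigerNumber G : ℝ) < (1 / 2 - 1 / 10 ^ 13) * n ∧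
      ∀ k : ℕ, G.Colorable k → (n : ℝ) / 2 ≤ k) :=
  ⟨gap_t, gap_n⟩

end Vale.Agent.Results.P060.ConstantFactor
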