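import Vale.Agent.P060.Defs
import Vale.Agent.P060.H392.Defs
import Vale.Agent.P060.H467.Main
import Vale.Agent.P060.H392.C

namespace Vale.Agent.Results.P060.PrescribedCliqueNumber

open Vale.Agent.P060 Vale.Agent.P060.HW

/-- **Hadwiger's conjecture fails, with every small clique number.**  (1) For every large `t` there is a finite graph with
no `K_(t+1)` minor, with independence number at most two, which cannot be coloured with `(1 + 2 * 10 ^ (-13)) t` colours;
in particular its Hadwiger number is smaller than its chromatic number.  (2) Let `δ > 0`, let `n` be large, let `H` be a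
graph on `s` vertices with independence number at most two, and let `w` be an integer with
`ω(H) + δ n ≤ w ≤ 3 * 10 ^ (-13) n - s`.  Then there is a graph on exactly `n` vertices with independence number at most
two and clique number exactly `w`, which contains `H` as an induced subgraph, and whose Hadwiger number is less than
`(1 / 2 - 10 ^ (-13)) n`, whose connected matchings have fewer than `(1 / 2 - 10 ^ (-12)) n` edges, and whose chromatic
number is at least `n / 2`. -/
theorem result :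
    (∃ t₀ : ℕ, ∀ t : ℕ, t₀ ≤ t → ∃ (n : ℕ) (G : SimpleGraph (Fin n)),
      G.indepNum ≤ 2 ∧ ¬ HasCliqueMinor G (t + 1) ∧
      (∀ k : ℕ, G.Colorable k → (1 + 2 / 10 ^ 13) * (t : ℝ) < k) ∧
      (hadwigerNumber G : ℕ∞) < G.chromaticNumber) ∧
    (∀ δ : ℝ, 0 < δ → ∃ n₀ : ℕ, ∀ n : ℕ, n₀ ≤ n → ∀ (s w : ℕ) (H : SimpleGraph (Fin s)),
      H.indepNum ≤ 2 → (H.cliqueNum : ℝ) + δ * n ≤ w → (w : ℝ) ≤ 3 / 10 ^ 13 * n - s →
      ∃ G : SimpleGraph (Fin n), G.indepNum ≤ 2 ∧ G.cliqueNum = w ∧ Nonempty (H ↪g G) ∧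
        (hadwigerNumber G : ℝ) < (1 / 2 - 1 / 10 ^ 13) * n ∧
        (∀ m : ℕ, HasConnectedMatching G m → (m : ℝ) < (1 / 2 - 1 / 10 ^ 12) * n) ∧
        ∀ k : ℕ, G.Colorable k → (n : ℝ) / 2 ≤ k) :=
  ⟨gap_t, fun δ hδ => by
    obtain ⟨n₀, h⟩ := main2 δ hδ
    exact ⟨n₀, fun n hn s w H h1 h2 h3 => h n hn s w H h1 h2 (by linarith)⟩⟩

end Vale.Agent.Results.P060.PrescribedCliqueNumber
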